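import Vale.Agent.P061.H358.Cyc

namespace Vale.Agent.Results.P061.SharpThinPackings

open Finset Vale.Agent.P061 Vale.Agent.P061.H358

/-- **The strong thin tree theorem with asymptotically sharp packings.**
(1) Q1 as posed: `C / k`-thin spanning trees, and the qualitative form.
(2) A multigraph with `t` edge-disjoint spanning trees has, for every `m ≤ t`, `m` edge-disjoint
spanning trees whose union is `(1 + C m ^ (-c)) (m / t)`-thin; a `k`-edge-connected multigraph
has, for every `m ≤ k / 2`, `m` edge-disjoint spanning trees whose union is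
`(2 + C m ^ (-c)) (m / k)`-thin.
(3) Both constants are best possible: a union of `m` edge-disjoint spanning trees which is
`α`-thin satisfies `m (|V| - 1) ≤ α |E|`, and for all `n ≥ 2`, `h ≥ 1` there is a
`2h`-edge-connected multigraph on `n` vertices in which `α ≥ 2 (1 - 1 / n) m / (2 h)`.
(4) Almost all trees of a packing can be made thin: for every `ε > 0` there is `C` such that `t`
edge-disjoint spanning trees give at least `(1 - ε) t` edge-disjoint `(C / t)`-thin ones, and a
`k`-edge-connected multigraph has at least `(1 - ε) (k - 1) / 2` (and at least one) edge-disjoint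
`(C / k)`-thin spanning trees. -/
theorem result :
    ((∃ C : ℝ, 0 < C ∧ ∀ (V E : Type) [Fintype V] [DecidableEq V] [Fintype E] [DecidableEq E]
        (G : MGraph V E) (k : ℕ), 1 ≤ k → 2 ≤ Fintype.card V → G.EdgeConnected k →
        ∃ T : Finset E, G.IsSpanningTree T ∧ G.IsThin T (C / k)) ∧
      (∀ ε : ℝ, 0 < ε → ∃ k₀ : ℕ, ∀ (V E : Type) [Fintype V] [DecidableEq V] [Fintype E]
        [DecidableEq E] (G : MGraph V E), 2 ≤ Fintype.card V → G.EdgeConnected k₀ →
        ∃ T : Finset E, G.IsSpanningTree T ∧ G.IsThin T ε)) ∧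
    (∃ C c : ℝ, 0 < C ∧ 0 < c ∧
      (∀ (V E : Type) [Fintype V] [DecidableEq V] [Fintype E] [DecidableEq E] (G : MGraph V E)
        (t m : ℕ), 1 ≤ m → m ≤ t → (∃ F : Fin t → Finset E, IsPacking G F) →
        ∃ T : Fin m → Finset E, IsPacking G T ∧
          G.IsThin (univ.biUnion T) ((1 + C * (m : ℝ) ^ (-c)) * (m / t))) ∧
      (∀ (V E : Type) [Fintype V] [DecidableEq V] [Fintype E] [DecidableEq E] (G : MGraph V E)
        (k m : ℕ), 1 ≤ m → 2 * m ≤ k → 2 ≤ Fintype.card V → G.EdgeConnected k →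
        ∃ T : Fin m → Finset E, IsPacking G T ∧
          G.IsThin (univ.biUnion T) ((2 + C * (m : ℝ) ^ (-c)) * (m / k)))) ∧
    ((∀ (V E : Type) [Fintype V] [DecidableEq V] [Fintype E] [DecidableEq E] (G : MGraph V E)
        (m : ℕ) (T : Fin m → Finset E) (α : ℝ), 2 ≤ Fintype.card V → IsPacking G T →
        G.IsThin (univ.biUnion T) α → (m : ℝ) * (Fintype.card V - 1) ≤ α * Fintype.card E) ∧
      (∀ n h m : ℕ, 2 ≤ n → 1 ≤ h →
        ∃ (V E : Type) (_ : Fintype V) (_ : DecidableEq V) (_ : Fintype E) (_ : DecidableEq E)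
        (G : MGraph V E), Fintype.card V = n ∧ G.EdgeConnected (2 * h) ∧
        ∀ T : Fin m → Finset E, IsPacking G T → ∀ α : ℝ, G.IsThin (univ.biUnion T) α →
          2 * (1 - 1 / (n : ℝ)) * (m / ((2 * h : ℕ) : ℝ)) ≤ α)) ∧
    (∀ ε : ℝ, 0 < ε → ∃ C : ℝ, 0 < C ∧
      (∀ (V E : Type) [Fintype V] [DecidableEq V] [Fintype E] [DecidableEq E] (G : MGraph V E)
        (t : ℕ), 1 ≤ t → (∃ F : Fin t → Finset E, IsPacking G F) →
        ∃ (s : ℕ) (T : Fin s → Finset E), (1 - ε) * t ≤ s ∧ IsPacking G T ∧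
          ∀ i, G.IsThin (T i) (C / t)) ∧
      (∀ (V E : Type) [Fintype V] [DecidableEq V] [Fintype E] [DecidableEq E] (G : MGraph V E)
        (k : ℕ), 1 ≤ k → 2 ≤ Fintype.card V → G.EdgeConnected k →
        ∃ (s : ℕ) (T : Fin s → Finset E), (1 - ε) * ((k - 1) / 2) ≤ s ∧ 1 ≤ s ∧
          IsPacking G T ∧ ∀ i, G.IsThin (T i) (C / k))) :=
  ⟨ST.Br.full_of_halving halvingStatement, sharp_forms,
    ⟨fun _ _ _ _ _ _ _ _ _ _ hV hT hα => lower hT hV hα, fun n h m hn hh => optimal n h m hn hh⟩,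
    almost_forms⟩

end Vale.Agent.Results.P061.SharpThinPackings
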