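import Vale.Agent.P061.H1.Main

namespace Vale.Agent.Results.P061.ThinRounding

open Finset Vale.Agent.P061 Vale.Agent.P061.H1

/-- **Thin rounding: the strong thin tree theorem for distributions, costs and fractional edge
weights.**
(1) Q1 as posed: `C / k`-thin spanning trees, and the qualitative form.
(2) For every `ε > 0`: a `k`-edge-connected multigraph has a random spanning tree, always
`C / k`-thin, which contains every edge with probability at most `(2 + ε) / k`; for all costs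
`w ≥ 0` it has a `C / k`-thin spanning tree of cost at most `(2 + ε) w(E) / k`.
(3) The same relative to any vector `x` in the dominant of the spanning tree polytope: thinness
`|T ∩ δ(S)| ≤ C x(δ(S))`, probabilities at most `(1 + ε) x e`, cost at most `(1 + ε) ∑ w x`.
(4) For every such `x` and every `m ≥ 1` there are `m` spanning trees inside `{x > 0}` which
together meet every cut `δ(S)` at most `(1 + C m ^ (-c)) m x(δ(S))` times.
(5) Every `x ≥ 0` with `x(δ(S)) ≥ 2` for all nonempty proper `S` lies in that dominant.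
(6) The constant `1` in (4) and the constant `2` in (2) cannot be lowered. -/
theorem result :
    ((∃ C : ℝ, 0 < C ∧ ∀ (V E : Type) [Fintype V] [DecidableEq V] [Fintype E] [DecidableEq E]
        (G : MGraph V E) (k : ℕ), 1 ≤ k → 2 ≤ Fintype.card V → G.EdgeConnected k →
        ∃ T : Finset E, G.IsSpanningTree T ∧ G.IsThin T (C / k)) ∧
      (∀ ε : ℝ, 0 < ε → ∃ k₀ : ℕ, ∀ (V E : Type) [Fintype V] [DecidableEq V] [Fintype E]
        [DecidableEq E] (G : MGraph V E), 2 ≤ Fintype.card V → G.EdgeConnected k₀ →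
        ∃ T : Finset E, G.IsSpanningTree T ∧ G.IsThin T ε)) ∧
    (∀ ε : ℝ, 0 < ε → ∃ C : ℝ, 0 < C ∧
      ∀ (V E : Type) [Fintype V] [DecidableEq V] [Fintype E] [DecidableEq E] (G : MGraph V E)
        (k : ℕ), 1 ≤ k → 2 ≤ Fintype.card V → G.EdgeConnected k →
        (∃ ν : Finset E → ℝ, IsTreeLaw G ν ∧ (∀ T, ν T ≠ 0 → G.IsThin T (C / k)) ∧
          ∀ e, marg ν e ≤ (2 + ε) / k) ∧
        ∀ w : E → ℝ, (∀ e, 0 ≤ w e) → ∃ T : Finset E, G.IsSpanningTree T ∧
          G.IsThin T (C / k) ∧ ∑ e ∈ T, w e ≤ (2 + ε) / k * ∑ e, w e) ∧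
    (∀ ε : ℝ, 0 < ε → ∃ C : ℝ, 0 < C ∧
      ∀ (V E : Type) [Fintype V] [DecidableEq V] [Fintype E] [DecidableEq E] (G : MGraph V E)
        (x : E → ℝ), Dom G x →
        (∃ ν : Finset E → ℝ, IsTreeLaw G ν ∧ (∀ T, ν T ≠ 0 → ThinFor G x C T) ∧
          ∀ e, marg ν e ≤ (1 + ε) * x e) ∧
        ∀ w : E → ℝ, (∀ e, 0 ≤ w e) → ∃ T : Finset E, G.IsSpanningTree T ∧ ThinFor G x C T ∧
          ∑ e ∈ T, w e ≤ (1 + ε) * ∑ e, w e * x e) ∧
    (∃ C c : ℝ, 0 < C ∧ 0 < c ∧
      ∀ (V E : Type) [Fintype V] [DecidableEq V] [Fintype E] [DecidableEq E] (G : MGraph V E)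
        (x : E → ℝ) (m : ℕ), Dom G x → 1 ≤ m →
        ∃ T : Fin m → Finset E, (∀ i, G.IsSpanningTree (T i)) ∧ (∀ i, ∀ e ∈ T i, 0 < x e) ∧
          ∀ S : Finset V, ∑ i, ((T i ∩ G.cut S).card : ℝ) ≤
            (1 + C * (m : ℝ) ^ (-c)) * m * ∑ e ∈ G.cut S, x e) ∧
    (∀ (V E : Type) [Fintype V] [DecidableEq V] [Fintype E] [DecidableEq E] (G : MGraph V E)
      (x : E → ℝ), 2 ≤ Fintype.card V → (∀ e, 0 ≤ x e) →
      (∀ S : Finset V, S.Nonempty → S ≠ univ → 2 ≤ ∑ e ∈ G.cut S, x e) → Dom G x) ∧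
    ((∀ (V E : Type) [Fintype V] [DecidableEq V] [Fintype E] [DecidableEq E] (G : MGraph V E)
        (μ : Finset E → ℝ) (m : ℕ) (T : Fin m → Finset E) (α : ℝ), IsTreeLaw G μ →
        2 ≤ Fintype.card V → 1 ≤ m → (∀ i, G.IsSpanningTree (T i)) →
        (∀ S : Finset V, ∑ i, ((T i ∩ G.cut S).card : ℝ) ≤
          α * m * ∑ e ∈ G.cut S, marg μ e) → 1 ≤ α) ∧
      (∀ n h : ℕ, 2 ≤ n → 1 ≤ h →
        ∃ (V E : Type) (_ : Fintype V) (_ : DecidableEq V) (_ : Fintype E) (_ : DecidableEq E)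
        (G : MGraph V E), Fintype.card V = n ∧ G.EdgeConnected (2 * h) ∧
        ∀ ν : Finset E → ℝ, IsTreeLaw G ν →
          ∃ e, 2 * (1 - 1 / (n : ℝ)) / ((2 * h : ℕ) : ℝ) ≤ marg ν e)) :=
  ⟨ST.Br.full_of_halving H358.halvingStatement, connected_rounding, dom_rounding, dom_sparse,
    fun _ _ _ _ _ _ G x hV hx hcut => dom_of_cuts G x hV hx hcut,
    fun _ _ _ _ _ _ _ _ _ _ _ hμ hV hm hT h => one_le hμ hV hm hT h,
    fun n h hn hh => optimal_two n h hn hh⟩

end Vale.Agent.Results.P061.ThinRounding
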